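import Vale.Agent.P284.H287.T.Calc

/-! # P284, theorem T (helper287): bounds of components -/

open scoped Manifold ContDiff Topology Pointwise ComplexConjugate ComplexOrder
open Filter Set Metric MeasureTheory

noncomputable section

namespace Vale.Agent.P284.H287.T

open Vale.Agent.P272.K Vale.Agent.P284.H248 Vale.Agent.P284.H894 Vale.Agent.P284.H894.G
  Vale.Agent.P284.H894.V Vale.Agent.P284.H913.V Vale.Agent.P284.H359.V Vale.Agent.P284.H359.Fr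

variable {n : ℕ} {H : Type} [NormedAddCommGroup H] [InnerProductSpace ℝ H]

lemma cmp_diff {u : Cm n → H} {z : Cm n} (hu : DifferentiableAt ℝ u z) (η : H) :
    DifferentiableAt ℝ (cmp u η) z := hu.inner ℝ (differentiableAt_const _)

/-- `Σ |∂_j u|²` -/
def D1H (u : Cm n → H) (z : Cm n) : ℝ := (1 / 4) * ∑ a, ‖dH u z a‖ ^ 2

/-- real part of `∂_j ∂_k̄ u` -/
def Aj (u : Cm n → H) (z : Cm n) (j k : Fin n) : H :=
  (1 / 4 : ℝ) • (ddH u z (j, false) (k, false) + ddH u z (j, true) (k, true))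

/-- imaginary part of `∂_j ∂_k̄ u` -/
def Bj (u : Cm n → H) (z : Cm n) (j k : Fin n) : H :=
  (1 / 4 : ℝ) • (ddH u z (j, false) (k, true) - ddH u z (j, true) (k, false))

/-- `Σ |∂_j ∂_k̄ u|²` -/
def D2H (u : Cm n → H) (z : Cm n) : ℝ := ∑ j, ∑ k, (‖Aj u z j k‖ ^ 2 + ‖Bj u z j k‖ ^ 2)

lemma D1H_nonneg (u : Cm n → H) (z : Cm n) : 0 ≤ D1H u z := by
  unfold D1H; positivity

lemma D2H_nonneg (u : Cm n → H) (z : Cm n) : 0 ≤ D2H u z := by
  unfold D2H; positivity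

lemma D1_eq {f : Cm n → ℝ} {z : Cm n} (hf : DifferentiableAt ℝ f z) :
    D1 f z = (1 / 4) * ∑ a, (dH f z a) ^ 2 := by
  unfold D1
  rw [Fintype.sum_prod_type, Finset.mul_sum]
  refine Finset.sum_congr rfl fun j _ => ?_
  rw [dz_coe hf, Fintype.sum_bool, Complex.sq_norm, Complex.normSq_apply]
  simp only [dH, pd]
  simp
  ring

lemma D2_eq {f : Cm n → ℝ} {z : Cm n} (hf : ContDiffAt ℝ 2 f z) :
    D2 f z = ∑ j, ∑ k, ((Aj f z j k) ^ 2 + (Bj f z j k) ^ 2) := by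
  unfold D2
  refine Finset.sum_congr rfl fun j _ => Finset.sum_congr rfl fun k _ => ?_
  rw [cHess_eq hf, Complex.sq_norm, Complex.normSq_apply]
  unfold Aj Bj
  simp only [Fintype.sum_bool, sg, smul_eq_mul]
  simp
  ring

lemma Aj_cmp {u : Cm n → H} {z : Cm n} (hu : ContDiffAt ℝ 2 u z) (η : H) (j k : Fin n) :
    Aj (cmp u η) z j k = @inner ℝ H _ (Aj u z j k) η := by
  unfold Aj
  rw [ddH_cmp hu, ddH_cmp hu, real_inner_smul_left, inner_add_left]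
  rfl

lemma Bj_cmp {u : Cm n → H} {z : Cm n} (hu : ContDiffAt ℝ 2 u z) (η : H) (j k : Fin n) :
    Bj (cmp u η) z j k = @inner ℝ H _ (Bj u z j k) η := by
  unfold Bj
  rw [ddH_cmp hu, ddH_cmp hu, real_inner_smul_left, inner_sub_left]
  rfl

lemma inner_sq_le (x η : H) : (@inner ℝ H _ x η) ^ 2 ≤ ‖η‖ ^ 2 * ‖x‖ ^ 2 := by
  have h := abs_real_inner_le_norm x η
  have h2 : (@inner ℝ H _ x η) ^ 2 ≤ (‖x‖ * ‖η‖) ^ 2 := by
    rw [← sq_abs]
    exact pow_le_pow_left₀ (abs_nonneg _) h 2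
  calc _ ≤ (‖x‖ * ‖η‖) ^ 2 := h2
    _ = _ := by ring

lemma D1_cmp_le {u : Cm n → H} {z : Cm n} (hu : DifferentiableAt ℝ u z) (η : H) :
    D1 (cmp u η) z ≤ ‖η‖ ^ 2 * D1H u z := by
  rw [D1_eq (cmp_diff hu _)]
  unfold D1H
  have : ∑ a, dH (cmp u η) z a ^ 2 ≤ ‖η‖ ^ 2 * ∑ a, ‖dH u z a‖ ^ 2 := by
    rw [Finset.mul_sum]
    refine Finset.sum_le_sum fun a _ => ?_
    rw [dH_cmp hu]
    exact inner_sq_le _ _
  linarith

lemma D2_cmp_le {u : Cm n → H} {z : Cm n} (hu : ContDiffAt ℝ 2 u z) (η : H) :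
    D2 (cmp u η) z ≤ ‖η‖ ^ 2 * D2H u z := by
  rw [D2_eq (cmp_contDiffAt hu η)]
  unfold D2H
  rw [Finset.mul_sum]
  refine Finset.sum_le_sum fun j _ => ?_
  rw [Finset.mul_sum]
  refine Finset.sum_le_sum fun k _ => ?_
  rw [Aj_cmp hu, Bj_cmp hu, mul_add]
  exact add_le_add (inner_sq_le _ _) (inner_sq_le _ _)

lemma inner_self_sq (x : H) {m : ℕ} {e : Fin m → H}
    (h : ∀ y, @inner ℝ H _ x y = ∑ i, @inner ℝ H _ x (e i) * @inner ℝ H _ y (e i)) :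
    ‖x‖ ^ 2 = ∑ i, (@inner ℝ H _ x (e i)) ^ 2 := by
  rw [← real_inner_self_eq_norm_sq, h]
  exact Finset.sum_congr rfl fun i _ => (sq _).symm

lemma Good.aj {m : ℕ} {u : Cm n → H} {z : Cm n} {e : Fin m → H} (h : Good u z e)
    (j k : Fin n) (y : H) : @inner ℝ H _ (Aj u z j k) y =
      ∑ i, @inner ℝ H _ (Aj u z j k) (e i) * @inner ℝ H _ y (e i) := by
  unfold Aj
  simp only [real_inner_smul_left, inner_add_left, mul_add, add_mul, Finset.sum_add_distrib]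
  rw [h.d2 _ _ y, h.d2 _ _ y, Finset.mul_sum, Finset.mul_sum]
  simp only [mul_assoc]

lemma Good.bj {m : ℕ} {u : Cm n → H} {z : Cm n} {e : Fin m → H} (h : Good u z e)
    (j k : Fin n) (y : H) : @inner ℝ H _ (Bj u z j k) y =
      ∑ i, @inner ℝ H _ (Bj u z j k) (e i) * @inner ℝ H _ y (e i) := by
  unfold Bj
  simp only [real_inner_smul_left, inner_sub_left, mul_sub, sub_mul, Finset.sum_sub_distrib]
  rw [h.d2 _ _ y, h.d2 _ _ y, Finset.mul_sum, Finset.mul_sum]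
  simp only [mul_assoc]

lemma Good.D1 {m : ℕ} {u : Cm n → H} {z : Cm n} {e : Fin m → H} (h : Good u z e)
    (hu : DifferentiableAt ℝ u z) : D1H u z = ∑ i, V.D1 (cmp u (e i)) z := by
  have : ∀ i, V.D1 (cmp u (e i)) z = ∑ a, (1 / 4) * (@inner ℝ H _ (dH u z a) (e i)) ^ 2 := by
    intro i
    rw [D1_eq (cmp_diff hu _), Finset.mul_sum]
    exact Finset.sum_congr rfl fun a _ => by rw [dH_cmp hu]
  rw [Finset.sum_congr rfl fun i _ => this i, Finset.sum_comm]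
  unfold D1H
  rw [Finset.mul_sum]
  refine Finset.sum_congr rfl fun a _ => ?_
  rw [inner_self_sq _ (h.d1 a), Finset.mul_sum]

lemma Good.D2 {m : ℕ} {u : Cm n → H} {z : Cm n} {e : Fin m → H} (h : Good u z e)
    (hu : ContDiffAt ℝ 2 u z) : D2H u z = ∑ i, V.D2 (cmp u (e i)) z := by
  have : ∀ i, V.D2 (cmp u (e i)) z = ∑ j, ∑ k, ((@inner ℝ H _ (Aj u z j k) (e i)) ^ 2 +
      (@inner ℝ H _ (Bj u z j k) (e i)) ^ 2) := by
    intro i
    rw [D2_eq (cmp_contDiffAt hu _)]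
    exact Finset.sum_congr rfl fun j _ => Finset.sum_congr rfl fun k _ => by
      rw [Aj_cmp hu, Bj_cmp hu]
  rw [Finset.sum_congr rfl fun i _ => this i, sum3]
  unfold D2H
  refine Finset.sum_congr rfl fun j _ => Finset.sum_congr rfl fun k _ => ?_
  rw [inner_self_sq _ (h.aj j k), inner_self_sq _ (h.bj j k), Finset.sum_add_distrib]

lemma D1H_le (hP : VPStmt) {w : Cm n → Matrix (Fin n) (Fin n) ℂ} {u : Cm n → H} {z : Cm n}
    {lam Lam : ℝ} (hw : (w z).PosDef) (hl : 0 < lam)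
    (h1 : ∀ v : Cm n, lam * ∑ j, ‖v j‖ ^ 2 ≤ (∑ j, ∑ k, w z j k * v j * conj (v k)).re)
    (h2 : ∀ v : Cm n, (∑ j, ∑ k, w z j k * v j * conj (v k)).re ≤ Lam * ∑ j, ‖v j‖ ^ 2)
    (hu : DifferentiableAt ℝ u z) :
    D1H u z ≤ Lam * grH w u u z ∧ lam * grH w u u z ≤ D1H u z := by
  obtain ⟨m, e, he⟩ := exists_good u z
  have h := fun i => hP.ell w (cmp u (e i)) z lam Lam hw hl h1 h2
  rw [he.D1 hu, he.gr w hu hu, Finset.mul_sum, Finset.mul_sum]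
  exact ⟨Finset.sum_le_sum fun i _ => (h i).1, Finset.sum_le_sum fun i _ => (h i).2.1⟩

lemma D2H_le (hP : VPStmt) {w : Cm n → Matrix (Fin n) (Fin n) ℂ} {u : Cm n → H} {z : Cm n}
    {lam Lam : ℝ} (hw : (w z).PosDef) (hl : 0 < lam)
    (h1 : ∀ v : Cm n, lam * ∑ j, ‖v j‖ ^ 2 ≤ (∑ j, ∑ k, w z j k * v j * conj (v k)).re)
    (h2 : ∀ v : Cm n, (∑ j, ∑ k, w z j k * v j * conj (v k)).re ≤ Lam * ∑ j, ‖v j‖ ^ 2)
    (hu : ContDiffAt ℝ ∞ u z) : D2H u z ≤ Lam ^ 2 * hhH w u u z := by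
  obtain ⟨m, e, he⟩ := exists_good u z
  have h := fun i => (hP.ell w (cmp u (e i)) z lam Lam hw hl h1 h2).2.2 (cmp_contDiffAt hu _)
  rw [he.D2 (hu.of_le two_le), he.hh w (hu.of_le two_le) (hu.of_le two_le), Finset.mul_sum]
  exact Finset.sum_le_sum fun i _ => h i

/-- Bessel -/
lemma sum_D2_le {m : ℕ} {e : Fin m → H} (he : Orthonormal ℝ e) {u : Cm n → H} {z : Cm n}
    (hu : ContDiffAt ℝ 2 u z) : ∑ i, V.D2 (cmp u (e i)) z ≤ D2H u z := by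
  have : ∀ i, V.D2 (cmp u (e i)) z = ∑ j, ∑ k, ((@inner ℝ H _ (Aj u z j k) (e i)) ^ 2 +
      (@inner ℝ H _ (Bj u z j k) (e i)) ^ 2) := by
    intro i
    rw [D2_eq (cmp_contDiffAt hu _)]
    exact Finset.sum_congr rfl fun j _ => Finset.sum_congr rfl fun k _ => by
      rw [Aj_cmp hu, Bj_cmp hu]
  rw [Finset.sum_congr rfl fun i _ => this i, sum3]
  unfold D2H
  have hb : ∀ x : H, ∑ i, (@inner ℝ H _ x (e i)) ^ 2 ≤ ‖x‖ ^ 2 := by
    intro x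
    have h := he.sum_inner_products_le (s := Finset.univ) x
    calc _ = ∑ i, ‖@inner ℝ H _ (e i) x‖ ^ 2 := Finset.sum_congr rfl fun i _ => by
          rw [real_inner_comm, Real.norm_eq_abs, sq_abs]
      _ ≤ _ := h
  refine Finset.sum_le_sum fun j _ => Finset.sum_le_sum fun k _ => ?_
  rw [Finset.sum_add_distrib]
  exact add_le_add (hb _) (hb _)

/-- finite-dimensional approximation on a compact set -/
lemma exists_fam_cpt {ι α : Type*} [Finite ι] [TopologicalSpace α] (g : ι → α → H) {S : Set α}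
    (hS : IsCompact S) (hg : ∀ i, ContinuousOn (g i) S) {δ : ℝ} (hδ : 0 < δ) :
    ∃ (m : ℕ) (e : Fin m → H), Orthonormal ℝ e ∧ ∀ i, ∀ z ∈ S,
      ‖g i z‖ ^ 2 ≤ ∑ k, (@inner ℝ H _ (g i z) (e k)) ^ 2 + δ := by
  have hc : IsCompact (⋃ i, g i '' S) := isCompact_iUnion fun i => hS.image_of_continuousOn (hg i)
  obtain ⟨t, -, ht, htc⟩ := hc.finite_cover_balls (e := √δ) (Real.sqrt_pos.2 hδ)
  have : Finite t := ht
  obtain ⟨m, e, he, h⟩ := exists_fam (fun x : t => (x : H))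
  refine ⟨m, e, he, fun i z hz => ?_⟩
  have h1 := htc (mem_iUnion.2 ⟨i, mem_image_of_mem _ hz⟩)
  simp only [mem_iUnion] at h1
  obtain ⟨c, hct, hc2⟩ := h1
  have h2 := h ⟨c, hct⟩
  simp only at h2
  have h3 : ‖g i z - c‖ ^ 2 ≤ δ := by
    rw [mem_ball, dist_eq_norm] at hc2
    calc ‖g i z - c‖ ^ 2 ≤ (√δ) ^ 2 := pow_le_pow_left₀ (norm_nonneg _) hc2.le 2
      _ = δ := Real.sq_sqrt hδ.le
  have h4 : ‖g i z - c‖ ^ 2 = ‖g i z‖ ^ 2 - 2 * @inner ℝ H _ (g i z) c + ‖c‖ ^ 2 :=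
    norm_sub_sq_real _ _
  rw [inner_self_sq c h2, real_inner_comm, h2] at h4
  have h5 : 0 ≤ ∑ k, (@inner ℝ H _ c (e k) - @inner ℝ H _ (g i z) (e k)) ^ 2 :=
    Finset.sum_nonneg fun _ _ => sq_nonneg _
  have h6 : ∑ k, (@inner ℝ H _ c (e k) - @inner ℝ H _ (g i z) (e k)) ^ 2 =
      ∑ k, (@inner ℝ H _ c (e k)) ^ 2 - 2 * ∑ k, @inner ℝ H _ c (e k) * @inner ℝ H _ (g i z) (e k)
        + ∑ k, (@inner ℝ H _ (g i z) (e k)) ^ 2 := by
    rw [Finset.mul_sum, ← Finset.sum_sub_distrib, ← Finset.sum_add_distrib]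
    exact Finset.sum_congr rfl fun k _ => by ring
  linarith

end Vale.Agent.P284.H287.T
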