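import Vale.Agent.P284.H287.T.Defs

/-! # P284, theorem T (helper287): calculus of Hilbert space valued functions -/

open scoped Manifold ContDiff Topology Pointwise ComplexConjugate ComplexOrder
open Filter Set Metric MeasureTheory

noncomputable section

namespace Vale.Agent.P284.H287.T

open Vale.Agent.P272.K Vale.Agent.P284.H248 Vale.Agent.P284.H894 Vale.Agent.P284.H894.G
  Vale.Agent.P284.H894.V Vale.Agent.P284.H913.V Vale.Agent.P284.H359.V Vale.Agent.P284.H359.Fr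

variable {n : ℕ} {H : Type} [NormedAddCommGroup H] [InnerProductSpace ℝ H]

/-- the component of `u` along `η` -/
def cmp (u : Cm n → H) (η : H) (y : Cm n) : ℝ := @inner ℝ H _ (u y) η

lemma two_le : (2 : WithTop ℕ∞) ≤ ∞ := WithTop.coe_le_coe.2 (le_top (a := (2 : ℕ∞)))

lemma innR (x y : ℝ) : @inner ℝ ℝ _ x y = x * y := by
  simp [mul_comm]

/-! ### Scalar functions -/

lemma formw (q : ℂ) (f g h k : ℝ) :
    (q * (((f : ℂ) - Complex.I * g) / 2) * (((h : ℂ) + Complex.I * k) / 2)).re =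
      cf q false false / 4 * (f * h) + cf q false true / 4 * (f * k)
        + (cf q true false / 4 * (g * h) + cf q true true / 4 * (g * k)) := by
  rw [form]; ring

/-- scalar functions: the gradient -/
lemma gr_eq' (w : Cm n → Matrix (Fin n) (Fin n) ℂ) {f h : Cm n → ℝ} {z : Cm n}
    (hf : DifferentiableAt ℝ f z) (hh : DifferentiableAt ℝ h z) :
    gr w f h z = grH w f h z := by
  unfold grH
  rw [sum_split]
  unfold gr
  rw [Complex.re_sum]
  refine Finset.sum_congr rfl fun j _ => ?_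
  rw [Complex.re_sum]
  refine Finset.sum_congr rfl fun k _ => ?_
  rw [dz_coe hf, dzb_coe hh, formw]
  simp only [innR, cw, dH, pd]

lemma dd_diff {u : Cm n → H} {z : Cm n} (hu : ContDiffAt ℝ 2 u z) (v : Cm n) :
    DifferentiableAt ℝ (fun y => fderiv ℝ u y v) z :=
  ((hu.fderiv_right (m := 1) (by norm_num)).differentiableAt (by norm_num)).clm_apply
    (differentiableAt_const _)

lemma ev_diff {u : Cm n → H} {z : Cm n} (hu : ContDiffAt ℝ 2 u z) :
    ∀ᶠ y in 𝓝 z, DifferentiableAt ℝ u y := by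
  filter_upwards [hu.eventually (by simp)] with y hy
  exact hy.differentiableAt (by norm_num)

/-- scalar functions: the complex Hessian -/
lemma cHess_eq {f : Cm n → ℝ} {z : Cm n} (hf : ContDiffAt ℝ 2 f z) (j k : Fin n) :
    cHess f z j k = (1 / 4) * ∑ α, ∑ β, sg α β * ((ddH f z (j, α) (k, β) : ℝ) : ℂ) := by
  have h1 : dzb k (fun y => (f y : ℂ)) =ᶠ[𝓝 z] fun y =>
      ((pd (ev (k, false)) f y : ℂ) + Complex.I * (pd (ev (k, true)) f y : ℂ)) / 2 := by
    filter_upwards [ev_diff hf] with y hy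
    exact dzb_coe hy k
  show dz j (dzb k (fun y => (f y : ℂ))) z = _
  have h2 := dz_lin (u := pd (ev (k, false)) f) (v := pd (ev (k, true)) f)
    (dd_diff hf _) (dd_diff hf _) j
  have h3 := dz_coe (f := pd (ev (k, false)) f) (dd_diff hf _) j
  have h4 := dz_coe (f := pd (ev (k, true)) f) (dd_diff hf _) j
  rw [dz_congr h1, h2, h3, h4]
  have e : ∀ a b, ddH f z a b = pd (ev a) (pd (ev b) f) z := fun _ _ => rfl
  simp only [Fintype.sum_bool, sg, e]
  simp only [if_true, reduceCtorEq, if_false]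
  linear_combination (-1 / 4 * (pd (ev (j, true)) (pd (ev (k, true)) f) z : ℂ)) * Complex.I_mul_I

lemma sum4 (t : Fin n → Fin n → Fin n → Fin n → ℂ) :
    ∑ i, ∑ x, ∑ j, ∑ l, t i x j l = ∑ j, ∑ x, ∑ l, ∑ i, t i x j l := by
  calc _ = ∑ i, ∑ j, ∑ x, ∑ l, t i x j l := Finset.sum_congr rfl fun i _ => Finset.sum_comm
    _ = ∑ j, ∑ i, ∑ x, ∑ l, t i x j l := Finset.sum_comm
    _ = ∑ j, ∑ x, ∑ i, ∑ l, t i x j l := Finset.sum_congr rfl fun j _ => Finset.sum_comm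
    _ = _ := Finset.sum_congr rfl fun j _ => Finset.sum_congr rfl fun x _ => Finset.sum_comm

lemma sum_split2 {M : Type*} [AddCommMonoid M] (F : Fin n × Bool → Fin n × Bool → M) :
    ∑ a, ∑ b, F a b = ∑ j, ∑ k, ∑ α, ∑ β, F (j, α) (k, β) := by
  rw [Fintype.sum_prod_type]
  refine Finset.sum_congr rfl fun j _ => ?_
  rw [Finset.sum_comm]
  simp only [Fintype.sum_prod_type]
  refine Finset.sum_congr rfl fun k _ => ?_
  rw [Finset.sum_comm]

/-- scalar functions: `⟨∂∂̄f, ∂∂̄h⟩` -/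
lemma hh_eq' (w : Cm n → Matrix (Fin n) (Fin n) ℂ) {f h : Cm n → ℝ} {z : Cm n}
    (hf : ContDiffAt ℝ 2 f z) (hh' : ContDiffAt ℝ 2 h z) :
    hh w f h z = hhH w f h z := by
  have e : ((w z)⁻¹ * cHess f z * ((w z)⁻¹ * cHess h z)).trace =
      ∑ a : Fin n × Bool, ∑ b : Fin n × Bool, ∑ c : Fin n × Bool, ∑ d : Fin n × Bool, (1 / 16) *
        ((w z)⁻¹ d.1 a.1 * (w z)⁻¹ b.1 c.1 * sg a.2 b.2 * sg c.2 d.2) *
        ((ddH f z a b : ℝ) : ℂ) * ((ddH h z c d : ℝ) : ℂ) := by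
    rw [sum_split2]
    simp only [sum_split2 (n := n) (M := ℂ)]
    have h1 : ((w z)⁻¹ * cHess f z * ((w z)⁻¹ * cHess h z)).trace =
        ∑ j, ∑ k, ∑ l, ∑ i, (w z)⁻¹ i j * cHess f z j k * ((w z)⁻¹ k l * cHess h z l i) := by
      simp only [Matrix.trace, Matrix.diag_apply, Matrix.mul_apply, Finset.sum_mul_sum]
      exact sum4 _
    rw [h1]
    refine Finset.sum_congr rfl fun j _ => Finset.sum_congr rfl fun k _ => ?_
    have h2 : ∀ (G : Bool → Bool → Fin n → Fin n → ℂ), ∑ α, ∑ β, ∑ l, ∑ i, G α β l i =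
        ∑ l, ∑ i, ∑ α, ∑ β, G α β l i := by
      intro G
      simp only [Fintype.sum_bool, Finset.sum_add_distrib]
    rw [h2]
    refine Finset.sum_congr rfl fun l _ => Finset.sum_congr rfl fun i _ => ?_
    rw [cHess_eq hf, cHess_eq hh']
    simp only [Fintype.sum_bool]
    ring
  unfold hh
  rw [e]
  unfold hhH
  simp only [Complex.re_sum]
  refine Finset.sum_congr rfl fun a _ => Finset.sum_congr rfl fun b _ =>
    Finset.sum_congr rfl fun c _ => Finset.sum_congr rfl fun d _ => ?_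
  rw [Complex.re_mul_ofReal, Complex.re_mul_ofReal, innR]
  have : ((1 / 16 : ℂ) * ((w z)⁻¹ d.1 a.1 * (w z)⁻¹ b.1 c.1 * sg a.2 b.2 * sg c.2 d.2)).re =
      1 / 16 * ((w z)⁻¹ d.1 a.1 * (w z)⁻¹ b.1 c.1 * sg a.2 b.2 * sg c.2 d.2).re := by
    rw [show (1 / 16 : ℂ) = ((1 / 16 : ℝ) : ℂ) by push_cast; rfl, Complex.re_ofReal_mul]
  rw [this]
  ring

/-- scalar functions: the Laplacian -/
lemma lap_eq' (w : Cm n → Matrix (Fin n) (Fin n) ℂ) {f : Cm n → ℝ} {z : Cm n}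
    (hf : ContDiffAt ℝ 2 f z) : lap w f z = lapH w f z := by
  unfold lap lapH
  rw [sum_split, Matrix.trace, Complex.re_sum]
  simp only [Matrix.diag_apply, Matrix.mul_apply, Complex.re_sum]
  rw [Finset.sum_comm]
  refine Finset.sum_congr rfl fun j _ => Finset.sum_congr rfl fun k _ => ?_
  rw [cHess_eq hf]
  simp only [Fintype.sum_bool, sg, cw, cf, smul_eq_mul]
  simp
  ring

lemma sum5 {ι κ : Type*} [Fintype ι] [Fintype κ] (F : ι → κ → κ → κ → κ → ℝ) :
    ∑ i, ∑ a, ∑ b, ∑ c, ∑ d, F i a b c d = ∑ a, ∑ b, ∑ c, ∑ d, ∑ i, F i a b c d := by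
  calc _ = ∑ a, ∑ i, ∑ b, ∑ c, ∑ d, F i a b c d := Finset.sum_comm
    _ = ∑ a, ∑ b, ∑ i, ∑ c, ∑ d, F i a b c d := Finset.sum_congr rfl fun a _ => Finset.sum_comm
    _ = ∑ a, ∑ b, ∑ c, ∑ i, ∑ d, F i a b c d := Finset.sum_congr rfl fun a _ =>
        Finset.sum_congr rfl fun b _ => Finset.sum_comm
    _ = _ := Finset.sum_congr rfl fun a _ => Finset.sum_congr rfl fun b _ =>
        Finset.sum_congr rfl fun c _ => Finset.sum_comm

lemma sum3 {ι κ : Type*} [Fintype ι] [Fintype κ] (F : ι → κ → κ → ℝ) :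
    ∑ i, ∑ a, ∑ b, F i a b = ∑ a, ∑ b, ∑ i, F i a b := by
  calc _ = ∑ a, ∑ i, ∑ b, F i a b := Finset.sum_comm
    _ = _ := Finset.sum_congr rfl fun a _ => Finset.sum_comm

/-! ### Components -/

lemma fd_cmp {u : Cm n → H} {z : Cm n} (hu : DifferentiableAt ℝ u z) (η : H) (v : Cm n) :
    fderiv ℝ (cmp u η) z v = @inner ℝ H _ (fderiv ℝ u z v) η := by
  have h := hu.hasFDerivAt.inner ℝ (hasFDerivAt_const η z)
  have h2 : fderiv ℝ (cmp u η) z = _ := h.fderiv
  rw [h2]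
  simp

lemma dH_cmp {u : Cm n → H} {z : Cm n} (hu : DifferentiableAt ℝ u z) (η : H)
    (a : Fin n × Bool) : dH (cmp u η) z a = @inner ℝ H _ (dH u z a) η := fd_cmp hu η _

lemma ddH_cmp {u : Cm n → H} {z : Cm n} (hu : ContDiffAt ℝ 2 u z) (η : H)
    (a b : Fin n × Bool) : ddH (cmp u η) z a b = @inner ℝ H _ (ddH u z a b) η := by
  have h1 : (fun y => fderiv ℝ (cmp u η) y (ev b)) =ᶠ[𝓝 z]
      cmp (fun y => fderiv ℝ u y (ev b)) η := by
    filter_upwards [ev_diff hu] with y hy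
    exact fd_cmp hy η _
  unfold ddH
  rw [h1.fderiv_eq, fd_cmp (dd_diff hu _)]

lemma cmp_contDiffAt {u : Cm n → H} {z : Cm n} {k : WithTop ℕ∞} (hu : ContDiffAt ℝ k u z)
    (η : H) : ContDiffAt ℝ k (cmp u η) z := hu.inner ℝ contDiffAt_const

lemma inner_lapH (w : Cm n → Matrix (Fin n) (Fin n) ℂ) {u : Cm n → H} {z : Cm n}
    (hu : ContDiffAt ℝ 2 u z) (η : H) :
    @inner ℝ H _ (lapH w u z) η = lap w (cmp u η) z := by
  rw [lap_eq' w (cmp_contDiffAt hu η)]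
  unfold lapH
  simp only [sum_inner, inner_smul_left, ddH_cmp hu, smul_eq_mul]
  rfl

/-- `e` is an orthonormal family whose span contains the derivatives of `u` at `z`. -/
structure Good {m : ℕ} (u : Cm n → H) (z : Cm n) (e : Fin m → H) : Prop where
  orth : Orthonormal ℝ e
  d1 : ∀ a y, @inner ℝ H _ (dH u z a) y = ∑ i, @inner ℝ H _ (dH u z a) (e i) * @inner ℝ H _ y (e i)
  d2 : ∀ a b y, @inner ℝ H _ (ddH u z a b) y =
    ∑ i, @inner ℝ H _ (ddH u z a b) (e i) * @inner ℝ H _ y (e i)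

lemma exists_fam {ι : Type*} [Finite ι] (x : ι → H) : ∃ (m : ℕ) (e : Fin m → H),
    Orthonormal ℝ e ∧ ∀ i, ∀ y : H, @inner ℝ H _ (x i) y =
      ∑ k, @inner ℝ H _ (x i) (e k) * @inner ℝ H _ y (e k) := by
  obtain ⟨S, hS⟩ : ∃ S : Submodule ℝ H, S = Submodule.span ℝ (Set.range x) := ⟨_, rfl⟩
  have : FiniteDimensional ℝ S := by
    rw [hS]; exact FiniteDimensional.span_of_finite ℝ (Set.finite_range x)
  obtain ⟨b, hb⟩ : ∃ b : OrthonormalBasis (Fin (Module.finrank ℝ S)) ℝ S,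
    b = stdOrthonormalBasis ℝ S := ⟨_, rfl⟩
  refine ⟨Module.finrank ℝ S, fun k => (b k : H), ?_, ?_⟩
  · exact b.orthonormal.comp_linearIsometry S.subtypeₗᵢ
  · intro i y
    have hi : x i ∈ S := by rw [hS]; exact Submodule.subset_span ⟨i, rfl⟩
    have h1 := b.sum_repr' ⟨x i, hi⟩
    have h2 : x i = ∑ k, @inner ℝ H _ (b k : H) (x i) • (b k : H) := by
      have := congrArg (fun s : S => (s : H)) h1
      simp only [Submodule.coe_sum, Submodule.coe_smul] at this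
      exact this.symm
    conv_lhs => rw [h2]
    rw [sum_inner]
    refine Finset.sum_congr rfl fun k _ => ?_
    rw [inner_smul_left, real_inner_comm (b k : H) (x i), real_inner_comm y (b k : H)]
    rfl

lemma exists_good (u : Cm n → H) (z : Cm n) : ∃ (m : ℕ) (e : Fin m → H), Good u z e := by
  obtain ⟨m, e, he, h⟩ := exists_fam (ι := (Fin n × Bool) ⊕ ((Fin n × Bool) × (Fin n × Bool)))
    (Sum.elim (fun a => dH u z a) (fun p => ddH u z p.1 p.2))
  exact ⟨m, e, he, fun a y => h (Sum.inl a) y, fun a b y => h (Sum.inr (a, b)) y⟩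

lemma exists_good₂ (u : Cm n → H) (z : Cm n) (v : Cm n → H) (z' : Cm n) :
    ∃ (m : ℕ) (e : Fin m → H), Good u z e ∧ Good v z' e := by
  obtain ⟨m, e, he, h⟩ := exists_fam
    (ι := ((Fin n × Bool) ⊕ ((Fin n × Bool) × (Fin n × Bool))) ⊕
      ((Fin n × Bool) ⊕ ((Fin n × Bool) × (Fin n × Bool))))
    (Sum.elim (Sum.elim (fun a => dH u z a) (fun p => ddH u z p.1 p.2))
      (Sum.elim (fun a => dH v z' a) (fun p => ddH v z' p.1 p.2)))
  exact ⟨m, e, ⟨he, fun a y => h (Sum.inl (Sum.inl a)) y,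
    fun a b y => h (Sum.inl (Sum.inr (a, b))) y⟩,
    ⟨he, fun a y => h (Sum.inr (Sum.inl a)) y, fun a b y => h (Sum.inr (Sum.inr (a, b))) y⟩⟩

lemma Good.gr {m : ℕ} {u v : Cm n → H} {z : Cm n} {e : Fin m → H} (h : Good u z e)
    (w : Cm n → Matrix (Fin n) (Fin n) ℂ)
    (hu : DifferentiableAt ℝ u z) (hv : DifferentiableAt ℝ v z) :
    grH w u v z = ∑ i, V.gr w (cmp u (e i)) (cmp v (e i)) z := by
  have hu' : ∀ η, DifferentiableAt ℝ (cmp u η) z := fun η => hu.inner ℝ (differentiableAt_const _)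
  have hv' : ∀ η, DifferentiableAt ℝ (cmp v η) z := fun η => hv.inner ℝ (differentiableAt_const _)
  have hr : ∀ i, V.gr w (cmp u (e i)) (cmp v (e i)) z = ∑ a, ∑ b, cw w z a b *
      (@inner ℝ H _ (dH u z a) (e i) * @inner ℝ H _ (dH v z b) (e i)) := by
    intro i
    rw [gr_eq' w (hu' _) (hv' _)]
    unfold grH
    refine Finset.sum_congr rfl fun a _ => Finset.sum_congr rfl fun b _ => ?_
    rw [dH_cmp hu, dH_cmp hv, innR]
  rw [Finset.sum_congr rfl fun i _ => hr i, Finset.sum_comm]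
  unfold grH
  refine Finset.sum_congr rfl fun a _ => ?_
  rw [Finset.sum_comm]
  refine Finset.sum_congr rfl fun b _ => ?_
  rw [← Finset.mul_sum, ← h.d1]

lemma Good.hh {m : ℕ} {u v : Cm n → H} {z : Cm n} {e : Fin m → H} (h : Good u z e)
    (w : Cm n → Matrix (Fin n) (Fin n) ℂ)
    (hu : ContDiffAt ℝ 2 u z) (hv : ContDiffAt ℝ 2 v z) :
    hhH w u v z = ∑ i, V.hh w (cmp u (e i)) (cmp v (e i)) z := by
  have hr : ∀ i, V.hh w (cmp u (e i)) (cmp v (e i)) z = ∑ a, ∑ b, ∑ c, ∑ d, (1 / 16) *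
    ((w z)⁻¹ d.1 a.1 * (w z)⁻¹ b.1 c.1 * sg a.2 b.2 * sg c.2 d.2).re *
      (@inner ℝ H _ (ddH u z a b) (e i) * @inner ℝ H _ (ddH v z c d) (e i)) := by
    intro i
    rw [hh_eq' w (cmp_contDiffAt hu _) (cmp_contDiffAt hv _)]
    unfold hhH
    refine Finset.sum_congr rfl fun a _ => Finset.sum_congr rfl fun b _ =>
      Finset.sum_congr rfl fun c _ => Finset.sum_congr rfl fun d _ => ?_
    rw [ddH_cmp hu, ddH_cmp hv, innR]
  rw [Finset.sum_congr rfl fun i _ => hr i, sum5]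
  unfold hhH
  refine Finset.sum_congr rfl fun a _ => Finset.sum_congr rfl fun b _ =>
    Finset.sum_congr rfl fun c _ => Finset.sum_congr rfl fun d _ => ?_
  rw [← Finset.mul_sum, ← h.d2]

lemma lapH_span {m : ℕ} {u : Cm n → H} {z : Cm n} {e : Fin m → H} (h : Good u z e)
    (w : Cm n → Matrix (Fin n) (Fin n) ℂ) (y : H) :
    @inner ℝ H _ (lapH w u z) y =
      ∑ i, @inner ℝ H _ (lapH w u z) (e i) * @inner ℝ H _ y (e i) := by
  unfold lapH
  simp only [sum_inner, real_inner_smul_left, Finset.sum_mul]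
  rw [sum3]
  refine Finset.sum_congr rfl fun a _ => Finset.sum_congr rfl fun b _ => ?_
  rw [h.d2, Finset.mul_sum]
  refine Finset.sum_congr rfl fun i _ => ?_
  ring

lemma Good.lap {m : ℕ} {u v : Cm n → H} {z : Cm n} {e : Fin m → H} (h : Good u z e)
    (w : Cm n → Matrix (Fin n) (Fin n) ℂ)
    (hu : ContDiffAt ℝ 2 u z) (hv : ContDiffAt ℝ 2 v z) :
    @inner ℝ H _ (lapH w u z) (lapH w v z) =
      ∑ i, V.lap w (cmp u (e i)) z * V.lap w (cmp v (e i)) z := by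
  rw [lapH_span h w]
  simp only [inner_lapH w hu, inner_lapH w hv]

/-! ### Consequences of `VPStmt` -/

lemma grH_symm (hP : VPStmt) {w : Cm n → Matrix (Fin n) (Fin n) ℂ} {u v : Cm n → H} {z : Cm n}
    (hw : (w z).PosDef) (hu : DifferentiableAt ℝ u z) (hv : DifferentiableAt ℝ v z) :
    grH w u v z = grH w v u z := by
  obtain ⟨m, e, h1, h2⟩ := exists_good₂ u z v z
  rw [h1.gr w hu hv, h2.gr w hv hu]
  exact Finset.sum_congr rfl fun i _ => hP.symm w _ _ z hw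

lemma grH_nonneg (hP : VPStmt) {w : Cm n → Matrix (Fin n) (Fin n) ℂ} {u : Cm n → H} {z : Cm n}
    (hw : (w z).PosDef) (hu : DifferentiableAt ℝ u z) : 0 ≤ grH w u u z := by
  obtain ⟨m, e, h1⟩ := exists_good u z
  rw [h1.gr w hu hu]
  exact Finset.sum_nonneg fun i _ => (hP.nonneg w _ z hw).1

lemma hhH_nonneg (hP : VPStmt) {w : Cm n → Matrix (Fin n) (Fin n) ℂ} {u : Cm n → H} {z : Cm n}
    (hw : (w z).PosDef) (hu : ContDiffAt ℝ ∞ u z) : 0 ≤ hhH w u u z := by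
  obtain ⟨m, e, h1⟩ := exists_good u z
  have h2 : ContDiffAt ℝ 2 u z := hu.of_le two_le
  rw [h1.hh w h2 h2]
  exact Finset.sum_nonneg fun i _ => (hP.nonneg w _ z hw).2.1 (cmp_contDiffAt hu _)

/-- change of coordinates -/
lemma chg (hP : VPStmt) (w w' : Cm n → Matrix (Fin n) (Fin n) ℂ) (u v u' v' : Cm n → H)
    (T : Cm n → Cm n) (z : Cm n) (hT : ∀ᶠ y in 𝓝 z, DifferentiableAt ℂ T y)
    (hw : (w z).PosDef) (hw' : (w' (T z)).PosDef)
    (hc : w z = (Matrix.of fun p i => dz i (fun y => T y p) z).transpose * w' (T z) *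
      (Matrix.of fun p i => dz i (fun y => T y p) z).map (starRingEnd ℂ))
    (hu : ContDiffAt ℝ ∞ u z) (hv : ContDiffAt ℝ ∞ v z)
    (hu' : ContDiffAt ℝ ∞ u' (T z)) (hv' : ContDiffAt ℝ ∞ v' (T z))
    (huu : ∀ᶠ y in 𝓝 z, u y = u' (T y)) (hvv : ∀ᶠ y in 𝓝 z, v y = v' (T y)) :
    lapH w u z = lapH w' u' (T z) ∧ grH w u v z = grH w' u' v' (T z) ∧
      hhH w u v z = hhH w' u' v' (T z) := by
  have h2 : (2 : WithTop ℕ∞) ≤ ∞ := two_le
  have hcu : ∀ η, ∀ᶠ y in 𝓝 z, cmp u η y = cmp u' η (T y) := fun η => by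
    filter_upwards [huu] with y hy
    unfold cmp; rw [hy]
  have hcv : ∀ η, ∀ᶠ y in 𝓝 z, cmp v η y = cmp v' η (T y) := fun η => by
    filter_upwards [hvv] with y hy
    unfold cmp; rw [hy]
  have ht := fun η => hP.trans w w' (cmp u η) (cmp v η) (cmp u' η) (cmp v' η) T z hT hw hw' hc
    (cmp_contDiffAt hu' η) (cmp_contDiffAt hv' η) (hcu η) (hcv η)
  obtain ⟨m, e, h1, h1'⟩ := exists_good₂ u z u' (T z)
  refine ⟨?_, ?_, ?_⟩
  · refine ext_inner_right ℝ fun η => ?_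
    rw [inner_lapH w (hu.of_le h2), inner_lapH w' (hu'.of_le h2)]
    exact (ht η).1
  · rw [h1.gr w (hu.differentiableAt (by simp)) (hv.differentiableAt (by simp)),
      h1'.gr w' (hu'.differentiableAt (by simp)) (hv'.differentiableAt (by simp))]
    exact Finset.sum_congr rfl fun i _ => (ht _).2.1
  · rw [h1.hh w (hu.of_le h2) (hv.of_le h2), h1'.hh w' (hu'.of_le h2) (hv'.of_le h2)]
    exact Finset.sum_congr rfl fun i _ => (ht _).2.2.1

/-! ### Affine isometries -/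

section iso
variable {H' : Type} [NormedAddCommGroup H'] [InnerProductSpace ℝ H']

lemma dH_iso (A : H ≃ₗᵢ[ℝ] H') (c : H') (u : Cm n → H) (z : Cm n) (a : Fin n × Bool) :
    dH (fun y => A (u y) + c) z a = A (dH u z a) := by
  unfold dH
  rw [fderiv_add_const]
  have h := (A.toContinuousLinearEquiv).comp_fderiv (f := u) (x := z)
  have h2 : (fun y => A (u y)) = A.toContinuousLinearEquiv ∘ u := rfl
  rw [h2, h]
  rfl

lemma ddH_iso (A : H ≃ₗᵢ[ℝ] H') (c : H') (u : Cm n → H) (z : Cm n) (a b : Fin n × Bool) :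
    ddH (fun y => A (u y) + c) z a b = A (ddH u z a b) := by
  have h1 : (fun y => fderiv ℝ (fun y => A (u y) + c) y (ev b)) =
      fun y => A (fderiv ℝ u y (ev b)) + 0 := by
    funext y
    rw [add_zero]
    exact dH_iso A c u y b
  show fderiv ℝ (fun y => fderiv ℝ (fun y => A (u y) + c) y (ev b)) z (ev a) = _
  rw [h1]
  exact dH_iso A 0 (fun y => fderiv ℝ u y (ev b)) z a

lemma grH_iso (w : Cm n → Matrix (Fin n) (Fin n) ℂ) (A : H ≃ₗᵢ[ℝ] H') (c c' : H')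
    (u v : Cm n → H) (z : Cm n) :
    grH w (fun y => A (u y) + c) (fun y => A (v y) + c') z = grH w u v z := by
  unfold grH
  simp only [dH_iso, LinearIsometryEquiv.inner_map_map]

lemma hhH_iso (w : Cm n → Matrix (Fin n) (Fin n) ℂ) (A : H ≃ₗᵢ[ℝ] H') (c c' : H')
    (u v : Cm n → H) (z : Cm n) :
    hhH w (fun y => A (u y) + c) (fun y => A (v y) + c') z = hhH w u v z := by
  unfold hhH
  simp only [ddH_iso, LinearIsometryEquiv.inner_map_map]

lemma lapH_iso (w : Cm n → Matrix (Fin n) (Fin n) ℂ) (A : H ≃ₗᵢ[ℝ] H') (c : H')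
    (u : Cm n → H) (z : Cm n) :
    lapH w (fun y => A (u y) + c) z = A (lapH w u z) := by
  unfold lapH
  simp only [ddH_iso, map_sum, map_smul]

end iso

lemma dH_congr {u v : Cm n → H} {z : Cm n} (h : u =ᶠ[𝓝 z] v) (a : Fin n × Bool) :
    dH u z a = dH v z a := by
  unfold dH; rw [h.fderiv_eq]

lemma ddH_congr {u v : Cm n → H} {z : Cm n} (h : u =ᶠ[𝓝 z] v) (a b : Fin n × Bool) :
    ddH u z a b = ddH v z a b := by
  unfold ddH
  rw [Filter.EventuallyEq.fderiv_eq (f₁ := fun y => fderiv ℝ u y (ev b))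
    (f := fun y => fderiv ℝ v y (ev b)) ?_]
  filter_upwards [h.eventuallyEq_nhds] with y hy
  rw [hy.fderiv_eq]

lemma lapH_congr (w : Cm n → Matrix (Fin n) (Fin n) ℂ) {u v : Cm n → H} {z : Cm n}
    (h : u =ᶠ[𝓝 z] v) : lapH w u z = lapH w v z := by
  unfold lapH; simp only [ddH_congr h]

lemma grH_congr (w : Cm n → Matrix (Fin n) (Fin n) ℂ) {u v u' v' : Cm n → H} {z : Cm n}
    (h : u =ᶠ[𝓝 z] v) (h' : u' =ᶠ[𝓝 z] v') : grH w u u' z = grH w v v' z := by
  unfold grH; simp only [dH_congr h, dH_congr h']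

lemma hhH_congr (w : Cm n → Matrix (Fin n) (Fin n) ℂ) {u v u' v' : Cm n → H} {z : Cm n}
    (h : u =ᶠ[𝓝 z] v) (h' : u' =ᶠ[𝓝 z] v') : hhH w u u' z = hhH w v v' z := by
  unfold hhH; simp only [ddH_congr h, ddH_congr h']

end Vale.Agent.P284.H287.T
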