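import Vale.Agent.P284.H359.V6a
import Vale.Agent.P284.H913.V3

/-! # P284, theorem T (helper287): operators on functions with values in a real Hilbert space -/

open scoped Manifold ContDiff Topology Pointwise ComplexConjugate ComplexOrder
open Filter Set Metric MeasureTheory

noncomputable section

namespace Vale.Agent.P284.H287.T

open Vale.Agent.P272.K Vale.Agent.P284.H248 Vale.Agent.P284.H894 Vale.Agent.P284.H894.G
  Vale.Agent.P284.H894.V Vale.Agent.P284.H913.V Vale.Agent.P284.H359.V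

section ops

variable {n : ℕ} {H : Type} [NormedAddCommGroup H] [InnerProductSpace ℝ H]

/-- the real coefficients of `w⁻¹` -/
def cw (w : Cm n → Matrix (Fin n) (Fin n) ℂ) (z : Cm n) (a b : Fin n × Bool) : ℝ :=
  cf ((w z)⁻¹ b.1 a.1) a.2 b.2 / 4

/-- first derivatives in the real directions -/
def dH (u : Cm n → H) (z : Cm n) (a : Fin n × Bool) : H := fderiv ℝ u z (ev a)

/-- second derivatives in the real directions -/
def ddH (u : Cm n → H) (z : Cm n) (a b : Fin n × Bool) : H :=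
  fderiv ℝ (fun y => fderiv ℝ u y (ev b)) z (ev a)

/-- `∂_j ∂_k̄ = 1/4 Σ sg α β D_(j,α) D_(k,β)` -/
def sg (α β : Bool) : ℂ := if α = β then 1 else if α then -Complex.I else Complex.I

/-- `⟨∂u, ∂v⟩` -/
def grH (w : Cm n → Matrix (Fin n) (Fin n) ℂ) (u v : Cm n → H) (z : Cm n) : ℝ :=
  ∑ a, ∑ b, cw w z a b * @inner ℝ H _ (dH u z a) (dH v z b)

/-- the Laplacian -/
def lapH (w : Cm n → Matrix (Fin n) (Fin n) ℂ) (u : Cm n → H) (z : Cm n) : H :=
  ∑ a, ∑ b, cw w z a b • ddH u z a b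

/-- `⟨∂∂̄u, ∂∂̄v⟩` -/
def hhH (w : Cm n → Matrix (Fin n) (Fin n) ℂ) (u v : Cm n → H) (z : Cm n) : ℝ :=
  ∑ a, ∑ b, ∑ c, ∑ d, (1 / 16) *
    ((w z)⁻¹ d.1 a.1 * (w z)⁻¹ b.1 c.1 * sg a.2 b.2 * sg c.2 d.2).re *
      @inner ℝ H _ (ddH u z a b) (ddH v z c d)

end ops

/-- smooth affine-equivariant sections `u (g y) = π(g) u(y) + b(g)` -/
structure Sec {n : ℕ} {Γ : Type} [Group Γ] (C : Coc n Γ) {H : Type} [NormedAddCommGroup H]
    [InnerProductSpace ℝ H] (π : Γ →* (H ≃ₗᵢ[ℝ] H)) (b : Γ → H)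
    (u : Γ → C.I → Cm n → H) : Prop where
  smooth : ∀ γ a, ∀ z ∈ C.Ω a, ContDiffAt ℝ ∞ (u γ a) z
  compat : ∀ γ a b, ∀ z ∈ C.O a b, u γ a z = u (γ * C.κ a b z) b (C.T a b z)
  equi : ∀ g γ a, ∀ z ∈ C.Ω a, u (g * γ) a z = π g (u γ a z) + b g

end Vale.Agent.P284.H287.T
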