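import Vale.Agent.P284.H287.T.Bd
import Vale.Agent.P284.H287.V14A
import Vale.Agent.P284.H731.T8c
import Vale.Agent.P284.H35.V14B
import Vale.Agent.P284.H513.V11
import Vale.Agent.P284.H730.VP
import Vale.Agent.P284.H894.V.V12
import Vale.Agent.P284.H409.T.Spec

/-! # P284, theorem T, row T7 (helper287): the limit -/

open scoped Manifold ContDiff Topology Pointwise ComplexConjugate ComplexOrder InnerProductSpace
open Filter Set Metric MeasureTheory

noncomputable section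

namespace Vale.Agent.P284.H287.T

open Vale.Agent.P272.K Vale.Agent.P284.H248 Vale.Agent.P284.H894 Vale.Agent.P284.H894.G
  Vale.Agent.P284.H894.V Vale.Agent.P284.H913.V Vale.Agent.P284.H359.V Vale.Agent.P284.H35.V

variable {n : ℕ} {Γ : Type} [Group Γ] {C : Coc n Γ}
  {H : Type} [NormedAddCommGroup H] [InnerProductSpace ℝ H]
  {π : Γ →* (H ≃ₗᵢ[ℝ] H)} {b : Γ → H} {u : Γ → C.I → Cm n → H}

/-! ### Invariance -/

lemma sec_chg (hP : VPStmt) (K : KM C) (hu : Sec C π b u) {a d : C.I} {z : Cm n}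
    (hz : z ∈ C.O a d) :
    grH (K.w a) (u 1 a) (u 1 a) z = grH (K.w d) (u 1 d) (u 1 d) (C.T a d z) ∧
    hhH (K.w a) (u 1 a) (u 1 a) z = hhH (K.w d) (u 1 d) (u 1 d) (C.T a d z) := by
  have hzΩ : z ∈ C.Ω a := C.O_sub a d hz
  have hTΩ : C.T a d z ∈ C.Ω d := H639.V.T_mem_Ω C hz
  have hev := H731.T8.sec_one_ev hu hz
  have hT : ∀ᶠ y in 𝓝 z, DifferentiableAt ℂ (C.T a d) y := by
    filter_upwards [(C.O_open a d).mem_nhds hz] with y hy
    exact H913.V.T_diff C hy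
  have h := chg hP (K.w a) (K.w d) (u 1 a) (u 1 a)
    (fun y => π (C.κ a d z) (u 1 d y) + b (C.κ a d z))
    (fun y => π (C.κ a d z) (u 1 d y) + b (C.κ a d z)) (C.T a d) z hT
    ((K.ku a).pos z hzΩ) ((K.ku d).pos _ hTΩ) (K.change a d z hz)
    (hu.smooth 1 a z hzΩ) (hu.smooth 1 a z hzΩ)
    (((π (C.κ a d z)).toContinuousLinearEquiv.contDiff.contDiffAt.comp _
      (hu.smooth 1 d _ hTΩ)).add contDiffAt_const)
    (((π (C.κ a d z)).toContinuousLinearEquiv.contDiff.contDiffAt.comp _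
      (hu.smooth 1 d _ hTΩ)).add contDiffAt_const) hev hev
  rw [grH_iso, hhH_iso] at h
  exact h.2

lemma BD_gr (hP : VPStmt) (K : KM C) (hu : Sec C π b u) :
    BD C (fun a z => grH (K.w a) (u 1 a) (u 1 a) z) where
  cont a _ hz := (H731.T8.grH_smooth (K.ku a) hz (hu.smooth 1 a _ hz)
    (hu.smooth 1 a _ hz)).continuousAt.continuousWithinAt
  compat _ _ _ hz _ _ := (sec_chg hP K hu hz).1

lemma BD_hh (hP : VPStmt) (K : KM C) (hu : Sec C π b u) :
    BD C (fun a z => hhH (K.w a) (u 1 a) (u 1 a) z) where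
  cont a _ hz := (H731.T8.hhH_smooth (K.ku a) hz (hu.smooth 1 a _ hz)
    (hu.smooth 1 a _ hz)).continuousAt.continuousWithinAt
  compat _ _ _ hz _ _ := (sec_chg hP K hu hz).2

lemma D1H_piece (hu : Sec C π b u) (γ : Γ) {a : C.I} {z : Cm n} (hz : z ∈ C.Ω a) :
    D1H (u γ a) z = D1H (u 1 a) z := by
  have h := H731.T8.sec_equi_ev hu γ 1 hz
  rw [mul_one] at h
  unfold D1H
  simp only [dH_congr h, dH_iso, LinearIsometryEquiv.norm_map]

lemma D2H_piece (hu : Sec C π b u) (γ : Γ) {a : C.I} {z : Cm n} (hz : z ∈ C.Ω a) :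
    D2H (u γ a) z = D2H (u 1 a) z := by
  have h := H731.T8.sec_equi_ev hu γ 1 hz
  rw [mul_one] at h
  have hA : ∀ j k, Aj (u γ a) z j k = π γ (Aj (u 1 a) z j k) := by
    intro j k
    unfold Aj
    simp only [ddH_congr h, ddH_iso, map_smul, map_add]
  have hB : ∀ j k, Bj (u γ a) z j k = π γ (Bj (u 1 a) z j k) := by
    intro j k
    unfold Bj
    simp only [ddH_congr h, ddH_iso, map_smul, map_sub]
  unfold D2H
  simp only [hA, hB, LinearIsometryEquiv.norm_map]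

/-! ### Integrals on one piece -/

lemma cont_D1H {a : C.I} {v : Cm n → H} (hv : ∀ z ∈ C.Ω a, ContDiffAt ℝ ∞ v z) :
    ContinuousOn (D1H v) (C.Ω a) := by
  intro z hz
  refine ContinuousAt.continuousWithinAt ?_
  unfold D1H
  exact continuousAt_const.mul (tendsto_finsetSum _ fun i _ =>
    ((H731.T8.dH_smooth (hv z hz) i).continuousAt.norm.pow 2))

lemma cont_D2H {a : C.I} {v : Cm n → H} (hv : ∀ z ∈ C.Ω a, ContDiffAt ℝ ∞ v z) :
    ContinuousOn (D2H v) (C.Ω a) := by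
  intro z hz
  refine ContinuousAt.continuousWithinAt ?_
  unfold D2H Aj Bj
  refine tendsto_finsetSum _ fun j _ => tendsto_finsetSum _ fun k _ => ?_
  have h := fun c d => (H731.T8.ddH_smooth (hv z hz) c d).continuousAt
  exact ((((h _ _).add (h _ _)).const_smul _).norm.pow 2).add
    ((((h _ _).sub (h _ _)).const_smul _).norm.pow 2)

/-- the mollified functions carry the energy -/
lemma sum_W {δ : ℝ} {η : Cm n → ℝ} {B : ℝ} (hδ : 0 < δ) (hδ' : ∀ a, 4 * δ ≤ C.r a)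
    (hη : MolP n δ η B) (a : C.I) (A : ℝ) {ι : Type*} [Fintype ι] (f : ι → Cm n → ℝ)
    (hf : ∀ i, ∀ z ∈ C.Ω a, ContDiffAt ℝ ∞ (f i) z)
    (hA : ∀ z ∈ C.W a, ∀ e : Cm n, ‖e‖ ≤ 1 → ∑ i, (fderiv ℝ (mo η (f i)) z e) ^ 2 ≤ A) :
    ∑ i, ∫ z in C.W a, D1 (f i) z ≤
      2 * B * (∑ i, ∫ z in C.V a, D2 (f i) z) + n * A * volume.real (C.W a) := by
  obtain ⟨hB, -, -, -, -, hm⟩ := hη
  have hr := C.r_pos a
  have hd := hδ' a
  have hs : ∀ i, ∀ z ∈ closedBall (C.c a) (3 * C.r a), ContDiffAt ℝ ∞ (f i) z := fun i z hz =>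
    hf i z (H287.V.clV_sub C a hz)
  have hm1 : ∀ i, ∀ z ∈ ball (C.c a) (2 * C.r a), ContDiffAt ℝ ∞ (mo η (f i)) z := fun i =>
    (hm (C.c a) (2 * C.r a) (3 * C.r a) (by linarith) (by linarith) (f i) (hs i)).1
  have hm2 : ∀ i, ∫ z in C.W a, D1 (fun y => f i y - mo η (f i) y) z ≤
      B * ∫ z in C.V a, D2 (f i) z := fun i =>
    (hm (C.c a) (C.r a) (3 * C.r a) hr (by linarith) (f i) (hs i)).2.2.1
  have hsub : closedBall (C.c a) (C.r a) ⊆ ball (C.c a) (2 * C.r a) :=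
    closedBall_subset_ball (by linarith)
  have hWi : ∀ G : Cm n → ℝ, ContinuousOn G (ball (C.c a) (2 * C.r a)) →
      IntegrableOn G (C.W a) := fun G hG =>
    ((hG.mono hsub).integrableOn_compact (isCompact_closedBall _ _)).mono_set
      ball_subset_closedBall
  have hWs : C.W a ⊆ ball (C.c a) (2 * C.r a) := ball_subset_ball (by linarith)
  have h2V : ball (C.c a) (2 * C.r a) ⊆ C.Ω a := ball_subset_ball (by linarith)
  have hi0 : ∀ i, IntegrableOn (D1 (f i)) (C.W a) := fun i =>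
    hWi _ fun z hz => (H287.V.contAt_D1 (hf i z (h2V hz))).continuousWithinAt
  have hi1 : ∀ i, IntegrableOn (D1 (mo η (f i))) (C.W a) := fun i =>
    hWi _ fun z hz => (H287.V.contAt_D1 (hm1 i z hz)).continuousWithinAt
  have hi2 : ∀ i, IntegrableOn (D1 fun y => f i y - mo η (f i) y) (C.W a) := fun i =>
    hWi _ fun z hz =>
      (H287.V.contAt_D1 ((hf i z (h2V hz)).sub (hm1 i z hz))).continuousWithinAt
  have h1 : ∀ i, ∫ z in C.W a, D1 (f i) z ≤
      2 * B * (∫ z in C.V a, D2 (f i) z) + 2 * ∫ z in C.W a, D1 (mo η (f i)) z := by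
    intro i
    calc ∫ z in C.W a, D1 (f i) z
        ≤ ∫ z in C.W a, (2 * D1 (fun y => f i y - mo η (f i) y) z +
            2 * D1 (mo η (f i)) z) :=
          setIntegral_mono_on (hi0 i)
            (((hi2 i).const_mul 2).add ((hi1 i).const_mul 2)) measurableSet_ball
            fun z hz => H287.V.D1_le_two (hf i z (h2V (hWs hz))) (hm1 i z (hWs hz))
      _ = 2 * (∫ z in C.W a, D1 (fun y => f i y - mo η (f i) y) z) +
            2 * ∫ z in C.W a, D1 (mo η (f i)) z := by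
          rw [integral_add ((hi2 i).const_mul 2) ((hi1 i).const_mul 2), integral_const_mul,
            integral_const_mul]
      _ ≤ _ := by
          have := hm2 i
          linarith
  have h2 : ∑ i, ∫ z in C.W a, D1 (mo η (f i)) z ≤ n * A / 2 * volume.real (C.W a) := by
    rw [← integral_finsetSum _ fun i _ => hi1 i]
    calc ∫ z in C.W a, ∑ i, D1 (mo η (f i)) z
        ≤ ∫ z in C.W a, (n * A / 2 : ℝ) := by
          refine setIntegral_mono_on (integrable_finsetSum _ fun i _ => hi1 i) ?_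
            measurableSet_ball fun z hz => ?_
          · exact integrableOn_const (by exact measure_ball_lt_top.ne)
          · exact H287.V.sum_D1_le _ (fun i => mo η (f i)) z
              (fun i _ => (hm1 i z (hWs hz)).differentiableAt (by simp)) A (hA z hz)
      _ = _ := by rw [setIntegral_const, smul_eq_mul, mul_comm]
  calc ∑ i, ∫ z in C.W a, D1 (f i) z
      ≤ ∑ i, (2 * B * (∫ z in C.V a, D2 (f i) z) +
          2 * ∫ z in C.W a, D1 (mo η (f i)) z) := Finset.sum_le_sum fun i _ => h1 i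
    _ = 2 * B * (∑ i, ∫ z in C.V a, D2 (f i) z) +
          2 * ∑ i, ∫ z in C.W a, D1 (mo η (f i)) z := by
        rw [Finset.sum_add_distrib, ← Finset.mul_sum, ← Finset.mul_sum]
    _ ≤ _ := by linarith

/-- mollification is linear in the component -/
lemma mo_cmp {δ : ℝ} {η : Cm n → ℝ} (hη : ContDiff ℝ ∞ η)
    (h0 : ∀ t, δ ≤ ‖t‖ → η t = 0) {v : Cm n → H} {z : Cm n}
    (hv : ∀ y ∈ closedBall z δ, ContDiffAt ℝ ∞ v y) {ι : Type*} [Fintype ι] (t : ι → ℝ)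
    (e : ι → H) : mo η (cmp v (∑ i, t i • e i)) z = ∑ i, t i * mo η (cmp v (e i)) z := by
  rw [← H287.V.mo_comb hη h0 Finset.univ t (fun i => cmp v (e i)) z
    fun i _ y hy => (cmp_contDiffAt (hv y hy) _).continuousAt.continuousWithinAt]
  congr 1
  funext y
  unfold cmp
  rw [inner_sum]
  simp only [real_inner_smul_right]

lemma fderiv_mo_cmp {δ : ℝ} {η : Cm n → ℝ} {B : ℝ} (hδ : 0 < δ) (hδ' : ∀ a, 4 * δ ≤ C.r a)
    (hη : MolP n δ η B) {d : C.I} {v : Cm n → H} (hv : ∀ y ∈ C.Ω d, ContDiffAt ℝ ∞ v y)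
    {z₀ : Cm n} (hz₀ : z₀ ∈ C.W d) (x : Cm n) {ι : Type*} [Fintype ι] (t : ι → ℝ)
    (e : ι → H) : fderiv ℝ (mo η (cmp v (∑ i, t i • e i))) z₀ x =
      ∑ i, t i * fderiv ℝ (mo η (cmp v (e i))) z₀ x := by
  obtain ⟨-, hηs, -, hη0, -, hm⟩ := hη
  have hr := C.r_pos d
  have hd := hδ' d
  have hm1 : ∀ i, DifferentiableAt ℝ (mo η (cmp v (e i))) z₀ := fun i =>
    ((hm (C.c d) (C.r d) (3 * C.r d) hr (by linarith) (cmp v (e i))
      (fun z hz => cmp_contDiffAt (hv z (H287.V.clV_sub C d hz)) _)).1 z₀ hz₀).differentiableAt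
        (by simp)
  have h1 : mo η (cmp v (∑ i, t i • e i)) =ᶠ[𝓝 z₀] fun z => ∑ i, t i * mo η (cmp v (e i)) z := by
    filter_upwards [isOpen_ball.mem_nhds hz₀] with z hz
    refine mo_cmp hηs hη0 (fun y hy => hv y ?_) t e
    rw [mem_closedBall] at hy
    rw [mem_ball] at hz
    show y ∈ ball _ _
    rw [mem_ball]
    calc dist y (C.c d) ≤ dist y z + dist z (C.c d) := dist_triangle _ _ _
      _ < 4 * C.r d := by linarith
  rw [h1.fderiv_eq, fderiv_fun_sum (A := fun i z => t i * mo η (cmp v (e i)) z)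
    fun i _ => (hm1 i).const_mul (t i), _root_.sum_apply]
  refine Finset.sum_congr rfl fun i _ => ?_
  rw [fderiv_const_mul (hm1 i)]
  rfl

/-- the mollified sections carry the energy -/
lemma int_W {δ : ℝ} {η : Cm n → ℝ} {B : ℝ} (hδ : 0 < δ) (hδ' : ∀ a, 4 * δ ≤ C.r a)
    (hη : MolP n δ η B) (a : C.I) {A : ℝ} (hA0 : 0 ≤ A) {v : Cm n → H}
    (hv : ∀ z ∈ C.Ω a, ContDiffAt ℝ ∞ v z)
    (hA : ∀ z ∈ C.W a, ∀ x : Cm n, ‖x‖ ≤ 1 → ∀ θ : H, ‖θ‖ ≤ 1 →
      (fderiv ℝ (mo η (cmp v θ)) z x) ^ 2 ≤ A) :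
    ∫ z in C.W a, D1H v z ≤
      2 * B * (∫ z in C.V a, D2H v z) + n * A * volume.real (C.W a) := by
  have hB := hη.1
  have hsubW : closedBall (C.c a) (C.r a) ⊆ C.Ω a :=
    closedBall_subset_ball (by have := C.r_pos a; linarith)
  have hWV : C.W a ⊆ C.Ω a := (H287.V.W_sub C a).trans (H287.V.V_sub C a)
  have hsm : ∀ z ∈ C.Ω a, ∀ θ, ContDiffAt ℝ ∞ (cmp v θ) z := fun z hz θ =>
    cmp_contDiffAt (hv z hz) θ
  have hi : ∀ θ, IntegrableOn (D1 (cmp v θ)) (C.W a) := fun θ =>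
    (H287.V.intV fun z hz => (H287.V.contAt_D1 (hsm z hz θ)).continuousWithinAt).mono_set
      (H287.V.W_sub C a)
  have hi2 : ∀ θ, IntegrableOn (D2 (cmp v θ)) (C.V a) := fun θ =>
    H287.V.intV fun z hz => (H287.V.contAt_D2 (hsm z hz θ)).continuousWithinAt
  refine le_of_forall_pos_le_add fun κ hκ => ?_
  obtain ⟨vW, hvW⟩ : ∃ vW : ℝ, vW = volume.real (C.W a) := ⟨_, rfl⟩
  have hvW0 : 0 ≤ vW := by rw [hvW]; exact measureReal_nonneg
  obtain ⟨δ₀, hδ₀⟩ : ∃ δ₀ : ℝ, δ₀ = κ / (n * vW + 1) := ⟨_, rfl⟩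
  have hδ₀p : 0 < δ₀ := by rw [hδ₀]; positivity
  obtain ⟨m, e, he, hea⟩ := exists_fam_cpt (ι := Fin n × Bool) (fun i z => dH v z i)
    (isCompact_closedBall (C.c a) (C.r a))
    (fun i z hz => (H731.T8.dH_smooth (hv z (hsubW hz)) i).continuousAt.continuousWithinAt) hδ₀p
  have h1 : ∀ z ∈ C.W a, D1H v z ≤ ∑ k, D1 (cmp v (e k)) z + n * δ₀ := by
    intro z hz
    have hd : DifferentiableAt ℝ v z := (hv z (hWV hz)).differentiableAt (by simp)
    have h2 : ∀ k, D1 (cmp v (e k)) z =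
        ∑ i, (1 / 4) * (@inner ℝ H _ (dH v z i) (e k)) ^ 2 := by
      intro k
      rw [D1_eq (cmp_diff hd _), Finset.mul_sum]
      exact Finset.sum_congr rfl fun i _ => by rw [dH_cmp hd]
    rw [Finset.sum_congr rfl fun k _ => h2 k, Finset.sum_comm]
    unfold D1H
    have h3 : ∑ i, ‖dH v z i‖ ^ 2 ≤
        ∑ i : Fin n × Bool, (∑ k, (@inner ℝ H _ (dH v z i) (e k)) ^ 2 + δ₀) :=
      Finset.sum_le_sum fun i _ => hea i z (ball_subset_closedBall hz)
    rw [Finset.sum_add_distrib, Finset.sum_const, Finset.card_univ, Fintype.card_prod,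
      Fintype.card_fin, Fintype.card_bool, nsmul_eq_mul] at h3
    simp only [← Finset.mul_sum]
    push_cast at h3
    have h4 : 0 ≤ (n : ℝ) * δ₀ := by positivity
    linarith
  have h2 : ∫ z in C.W a, D1H v z ≤ (∑ k, ∫ z in C.W a, D1 (cmp v (e k)) z) + n * δ₀ * vW := by
    calc ∫ z in C.W a, D1H v z ≤ ∫ z in C.W a, (∑ k, D1 (cmp v (e k)) z + n * δ₀) := by
          refine setIntegral_mono_on ((H287.V.intV (cont_D1H hv)).mono_set (H287.V.W_sub C a))
            (Integrable.add (integrable_finsetSum _ fun k _ => hi (e k))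
              (integrableOn_const (by exact measure_ball_lt_top.ne))) measurableSet_ball h1
      _ = _ := by
          rw [integral_add (integrable_finsetSum _ fun k _ => hi (e k))
            (integrableOn_const (by exact measure_ball_lt_top.ne)),
            integral_finsetSum _ fun k _ => hi (e k), setIntegral_const, smul_eq_mul, hvW]
          ring
  have h3 := sum_W hδ hδ' hη a A (fun k => cmp v (e k)) (fun k z hz => hsm z hz _) (by
    intro z hz x hx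
    obtain ⟨S, hS⟩ : ∃ S : ℝ, S = ∑ k, (fderiv ℝ (mo η (cmp v (e k))) z x) ^ 2 := ⟨_, rfl⟩
    rw [← hS]
    by_cases hS0 : S ≤ 0
    · linarith
    push Not at hS0
    have h4 := hA z hz x hx (∑ k, (fderiv ℝ (mo η (cmp v (e k))) z x / √S) • e k) (by
      have h5 : ‖∑ k, (fderiv ℝ (mo η (cmp v (e k))) z x / √S) • e k‖ ^ 2 = 1 := by
        rw [← real_inner_self_eq_norm_sq, he.inner_sum]
        simp only [conj_trivial, ← sq, div_pow, Real.sq_sqrt hS0.le]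
        rw [← Finset.sum_div, ← hS, div_self hS0.ne']
      nlinarith [norm_nonneg (∑ k, (fderiv ℝ (mo η (cmp v (e k))) z x / √S) • e k)])
    rw [fderiv_mo_cmp hδ hδ' hη hv hz] at h4
    have h6 : ∑ i, fderiv ℝ (mo η (cmp v (e i))) z x / √S * fderiv ℝ (mo η (cmp v (e i))) z x =
        S / √S := by
      rw [hS, Finset.sum_div]
      exact Finset.sum_congr rfl fun k _ => by ring
    rw [h6, div_pow, Real.sq_sqrt hS0.le, sq, mul_div_assoc, div_self hS0.ne', mul_one] at h4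
    exact h4)
  have h4 : ∑ k, ∫ z in C.V a, D2 (cmp v (e k)) z ≤ ∫ z in C.V a, D2H v z := by
    rw [← integral_finsetSum _ fun k _ => hi2 (e k)]
    exact setIntegral_mono_on (integrable_finsetSum _ fun k _ => hi2 (e k))
      (H287.V.intV (cont_D2H hv)) measurableSet_ball
      fun z hz => sum_D2_le he ((hv z (H287.V.V_sub C a hz)).of_le two_le)
  have h5 : n * δ₀ * vW ≤ κ := by
    rw [hδ₀]
    have h6 : n * (κ / (n * vW + 1)) * vW = κ * ((n * vW) / (n * vW + 1)) := by ring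
    rw [h6]
    have h7 : (n * vW) / (n * vW + 1) ≤ 1 := by
      rw [div_le_one (by positivity)]; linarith
    nlinarith
  have h6 : 2 * B * (∑ k, ∫ z in C.V a, D2 (cmp v (e k)) z) ≤
      2 * B * ∫ z in C.V a, D2H v z := by gcongr
  linarith

/-! ### Bounds by the metric -/

lemma gr_vol_le (hP : VPStmt) (K : KM C) {a : C.I} {v : Cm n → H} {z : Cm n} (hz : z ∈ C.Ω a)
    (hv : DifferentiableAt ℝ v z) :
    grH (K.w a) v v z * vol (K.w a) z ≤ K.Lam / K.lam * D1H v z ∧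
    D1H v z ≤ K.Lam / K.lam * (grH (K.w a) v v z * vol (K.w a) z) := by
  have hl := K.lam_pos
  have hL := H287.V.Lam_pos K
  have hpos := (K.ku a).pos z hz
  obtain ⟨h1, h2⟩ := D1H_le hP hpos hl (K.low a z hz) (K.up a z hz) hv
  have h0 := grH_nonneg hP hpos hv
  have h3 := K.vol_up a z hz
  have h4 := K.vol_low a z hz
  constructor
  · calc grH (K.w a) v v z * vol (K.w a) z ≤ grH (K.w a) v v z * K.Lam := by gcongr
      _ = K.Lam / K.lam * (K.lam * grH (K.w a) v v z) := by field_simp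
      _ ≤ _ := by gcongr
  · calc D1H v z ≤ K.Lam * grH (K.w a) v v z := h1
      _ = K.Lam / K.lam * (grH (K.w a) v v z * K.lam) := by field_simp
      _ ≤ _ := by gcongr

lemma hh_vol_le (hP : VPStmt) (K : KM C) {a : C.I} {v : Cm n → H} {z : Cm n} (hz : z ∈ C.Ω a)
    (hv : ContDiffAt ℝ ∞ v z) :
    D2H v z ≤ K.Lam ^ 2 / K.lam * (hhH (K.w a) v v z * vol (K.w a) z) := by
  have hl := K.lam_pos
  have hL := H287.V.Lam_pos K
  have hpos := (K.ku a).pos z hz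
  have h1 := D2H_le hP hpos hl (K.low a z hz) (K.up a z hz) hv
  have h0 := hhH_nonneg hP hpos hv
  have h4 := K.vol_low a z hz
  calc D2H v z ≤ K.Lam ^ 2 * hhH (K.w a) v v z := h1
    _ = K.Lam ^ 2 / K.lam * (hhH (K.w a) v v z * K.lam) := by field_simp
    _ ≤ _ := by gcongr

lemma int_D1H_le (hP : VPStmt) (P : PU C) (K : KM C) (hu : Sec C π b u) (γ : Γ) (a : C.I) :
    ∫ z in C.V a, D1H (u γ a) z ≤
      K.Lam / K.lam * BInt P K (fun a z => grH (K.w a) (u 1 a) (u 1 a) z) := by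
  have hl := K.lam_pos
  have hL := H287.V.Lam_pos K
  have h1 := (BD_gr hP K hu).le P K
    (fun a z hz => grH_nonneg hP ((K.ku a).pos z hz)
      ((hu.smooth 1 a z hz).differentiableAt (by simp))) a
  refine le_trans ?_ (mul_le_mul_of_nonneg_left h1 (by positivity))
  rw [← integral_const_mul]
  refine setIntegral_mono_on (H287.V.intV (cont_D1H (hu.smooth γ a)))
    ((BD_gr hP K hu).int_vol K a |>.const_mul _) measurableSet_ball fun z hz => ?_
  have hz' := H287.V.V_sub C a hz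
  rw [D1H_piece hu γ hz']
  exact (gr_vol_le hP K hz' ((hu.smooth 1 a z hz').differentiableAt (by simp))).2

lemma int_D2H_le (hP : VPStmt) (P : PU C) (K : KM C) (hu : Sec C π b u) (γ : Γ) (a : C.I) :
    ∫ z in C.V a, D2H (u γ a) z ≤
      K.Lam ^ 2 / K.lam * BInt P K (fun a z => hhH (K.w a) (u 1 a) (u 1 a) z) := by
  have hl := K.lam_pos
  have hL := H287.V.Lam_pos K
  have h1 := (BD_hh hP K hu).le P K
    (fun a z hz => hhH_nonneg hP ((K.ku a).pos z hz) (hu.smooth 1 a z hz)) a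
  refine le_trans ?_ (mul_le_mul_of_nonneg_left h1 (by positivity))
  rw [← integral_const_mul]
  refine setIntegral_mono_on (H287.V.intV (cont_D2H (hu.smooth γ a)))
    ((BD_hh hP K hu).int_vol K a |>.const_mul _) measurableSet_ball fun z hz => ?_
  have hz' := H287.V.V_sub C a hz
  rw [D2H_piece hu γ hz']
  exact hh_vol_le hP K hz' (hu.smooth 1 a z hz')

/-! ### The theorem -/

/-- a point, a direction and a component with a large derivative -/
lemma exists_ptH (hP : VPStmt) (P : PU C) (K : KM C) (hu : Sec C π b u)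
    {δ : ℝ} {η : Cm n → ℝ} {B : ℝ} (hδ : 0 < δ) (hδ' : ∀ a, 4 * δ ≤ C.r a)
    (hη : MolP n δ η B) {k1 k2 c₁ ε₁ : ℝ}
    (hk1 : k1 = (K.Lam / K.lam) * (n * ∑ a, volume.real (C.W a)))
    (hk2 : k2 = (K.Lam / K.lam) * ((Fintype.card C.I : ℝ) * (2 * B * (K.Lam ^ 2 / K.lam))))
    (hc : k1 * c₁ ≤ 1 / 4) (he : k2 * ε₁ ≤ 1 / 4) (hc0 : 0 < c₁)
    (hE : 0 < BInt P K (fun a z => grH (K.w a) (u 1 a) (u 1 a) z))
    (hH : BInt P K (fun a z => hhH (K.w a) (u 1 a) (u 1 a) z) ≤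
      ε₁ * BInt P K (fun a z => grH (K.w a) (u 1 a) (u 1 a) z)) :
    ∃ d, ∃ z ∈ C.W d, ∃ x : Cm n, ‖x‖ ≤ 1 ∧ ∃ θ : H, ‖θ‖ ≤ 1 ∧
      c₁ * BInt P K (fun a z => grH (K.w a) (u 1 a) (u 1 a) z) <
        (fderiv ℝ (mo η (cmp (u 1 d) θ)) z x) ^ 2 := by
  have hl := K.lam_pos
  have hL := H287.V.Lam_pos K
  have hB := hη.1
  obtain ⟨E, hEdef⟩ : ∃ E : ℝ, E = BInt P K (fun a z => grH (K.w a) (u 1 a) (u 1 a) z) := ⟨_, rfl⟩
  obtain ⟨Hn, hHdef⟩ : ∃ Hn : ℝ, Hn = BInt P K (fun a z => hhH (K.w a) (u 1 a) (u 1 a) z) :=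
    ⟨_, rfl⟩
  rw [← hEdef, ← hHdef] at hH
  rw [← hEdef] at hE ⊢
  by_contra hcon
  push Not at hcon
  obtain ⟨L1, hL1⟩ : ∃ L1 : ℝ, L1 = K.Lam / K.lam := ⟨_, rfl⟩
  obtain ⟨L2, hL2⟩ : ∃ L2 : ℝ, L2 = K.Lam ^ 2 / K.lam := ⟨_, rfl⟩
  have hL1p : 0 < L1 := by rw [hL1]; positivity
  have hL2p : 0 < L2 := by rw [hL2]; positivity
  have h1 : ∀ a, ∫ z in C.W a, D1H (u 1 a) z ≤
      2 * B * (L2 * Hn) + n * (c₁ * E) * volume.real (C.W a) := by
    intro a
    have h2 := int_W hδ hδ' hη a (A := c₁ * E) (by positivity) (hu.smooth 1 a)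
      (fun z hz x hx θ hθ => hcon a z hz x hx θ hθ)
    have h4 := int_D2H_le hP P K hu 1 a
    rw [← hL2, ← hHdef] at h4
    have : 2 * B * (∫ z in C.V a, D2H (u 1 a) z) ≤ 2 * B * (L2 * Hn) := by gcongr
    linarith
  have h2 : E ≤ ∑ a, L1 * ∫ z in C.W a, D1H (u 1 a) z := by
    rw [hEdef]
    refine ((BD_gr hP K hu).ge P K (fun a z hz => grH_nonneg hP ((K.ku a).pos z hz)
      ((hu.smooth 1 a z hz).differentiableAt (by simp)))).trans ?_
    refine Finset.sum_le_sum fun a _ => ?_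
    rw [← integral_const_mul]
    refine setIntegral_mono_on (((BD_gr hP K hu).int_vol K a).mono_set (H287.V.W_sub C a))
      ((((H287.V.intV (cont_D1H (hu.smooth 1 a))).mono_set (H287.V.W_sub C a))).const_mul _)
      measurableSet_ball fun z hz => ?_
    have hz' := H287.V.V_sub C a (H287.V.W_sub C a hz)
    rw [hL1]
    exact (gr_vol_le hP K hz' ((hu.smooth 1 a z hz').differentiableAt (by simp))).1
  have h3 : E ≤ k2 * Hn + k1 * (c₁ * E) := by
    calc E ≤ ∑ a, L1 * (2 * B * (L2 * Hn) + n * (c₁ * E) * volume.real (C.W a)) :=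
          h2.trans (Finset.sum_le_sum fun a _ => by
            have := h1 a
            gcongr)
      _ = _ := by
          rw [← Finset.mul_sum, Finset.sum_add_distrib, Finset.sum_const, Finset.card_univ,
            nsmul_eq_mul, ← Finset.mul_sum, hk1, hk2, ← hL1, ← hL2]
          ring
  have h7 : k1 * (c₁ * E) ≤ E / 4 := by nlinarith
  have hk20 : 0 ≤ k2 := by rw [hk2]; positivity
  have h8 : k2 * Hn ≤ E / 4 := by
    calc k2 * Hn ≤ k2 * (ε₁ * E) := by gcongr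
      _ = k2 * ε₁ * E := by ring
      _ ≤ 1 / 4 * E := by gcongr
      _ = _ := by ring
  linarith

/-- the approximating functions -/
lemma exists_app (hP : VPStmt) (C : Coc n Γ) (P : PU C) (K : KM C)
    (hex : ∀ ε : ℝ, 0 < ε → ∃ (H : Type) (_ : NormedAddCommGroup H) (_ : InnerProductSpace ℝ H)
      (_ : CompleteSpace H) (π : Γ →* (H ≃ₗᵢ[ℝ] H)) (u : Γ → C.I → Cm n → H), Sec C π 0 u ∧
      BInt P K (fun a z => hhH (K.w a) (u 1 a) (u 1 a) z) <
        ε * BInt P K (fun a z => grH (K.w a) (u 1 a) (u 1 a) z))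
    (δ : ℝ) (η : Cm n → ℝ) (B : ℝ) (hδ : 0 < δ) (hδ' : ∀ a, 4 * δ ≤ C.r a)
    (hη : MolP n δ η B) : ∃ C₁ : ℝ, ∀ ε : ℝ, 0 < ε → ∃ u, App C η C₁ ε u := by
  have hl := K.lam_pos
  have hL := H287.V.Lam_pos K
  have hB := hη.1
  obtain ⟨k1, hk1⟩ : ∃ k1 : ℝ, k1 = (K.Lam / K.lam) * (n * ∑ a, volume.real (C.W a)) := ⟨_, rfl⟩
  obtain ⟨k2, hk2⟩ : ∃ k2 : ℝ, k2 = (K.Lam / K.lam) *
      ((Fintype.card C.I : ℝ) * (2 * B * (K.Lam ^ 2 / K.lam))) := ⟨_, rfl⟩
  have hk10 : 0 ≤ k1 := by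
    have : 0 ≤ ∑ a, volume.real (C.W a) := Finset.sum_nonneg fun _ _ => measureReal_nonneg
    rw [hk1]; positivity
  have hk20 : 0 ≤ k2 := by rw [hk2]; positivity
  obtain ⟨L1, hL1⟩ : ∃ L1 : ℝ, L1 = K.Lam / K.lam := ⟨_, rfl⟩
  obtain ⟨L2, hL2⟩ : ∃ L2 : ℝ, L2 = K.Lam ^ 2 / K.lam := ⟨_, rfl⟩
  have hL1p : 0 < L1 := by rw [hL1]; positivity
  have hL2p : 0 < L2 := by rw [hL2]; positivity
  obtain ⟨c₁, hc1⟩ : ∃ c : ℝ, c = 1 / (4 * (k1 + 1)) := ⟨_, rfl⟩
  have hc1p : 0 < c₁ := by rw [hc1]; positivity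
  refine ⟨L1 / c₁, fun ε hε => ?_⟩
  obtain ⟨ε', hε'⟩ : ∃ e : ℝ, e = min (1 / (4 * (k2 + 1))) (ε * c₁ / L2) := ⟨_, rfl⟩
  have hε'p : 0 < ε' := by rw [hε']; exact lt_min (by positivity) (by positivity)
  obtain ⟨H, _, _, _, π, u, hu, hlt⟩ := hex ε' hε'p
  obtain ⟨E, hEdef⟩ : ∃ E : ℝ, E = BInt P K (fun a z => grH (K.w a) (u 1 a) (u 1 a) z) := ⟨_, rfl⟩
  obtain ⟨Hn, hHdef⟩ : ∃ Hn : ℝ, Hn = BInt P K (fun a z => hhH (K.w a) (u 1 a) (u 1 a) z) :=
    ⟨_, rfl⟩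
  have hH0 : 0 ≤ Hn := by
    obtain ⟨a⟩ := C.ne
    have h1 := (BD_hh hP K hu).le P K
      (fun a z hz => hhH_nonneg hP ((K.ku a).pos z hz) (hu.smooth 1 a z hz)) a
    rw [hHdef]
    refine le_trans (setIntegral_nonneg measurableSet_ball fun z hz => ?_) h1
    have hz' := H287.V.V_sub C a hz
    exact mul_nonneg (hhH_nonneg hP ((K.ku a).pos z hz') (hu.smooth 1 a z hz')) (vol_nn K hz')
  have hEp : 0 < E := by
    by_contra hc
    push Not at hc
    have : ε' * E ≤ 0 := mul_nonpos_of_nonneg_of_nonpos hε'p.le hc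
    rw [← hEdef, ← hHdef] at hlt
    linarith
  obtain ⟨d, z₀, hz₀, x, hx, θ, hθ, hS⟩ := exists_ptH hP P K hu hδ hδ' hη hk1 hk2 (c₁ := c₁)
    (ε₁ := ε') (by
      rw [hc1, mul_one_div, div_le_div_iff₀ (by positivity) (by norm_num)]
      linarith) (by
      have h9 : k2 * (1 / (4 * (k2 + 1))) ≤ 1 / 4 := by
        rw [mul_one_div, div_le_div_iff₀ (by positivity) (by norm_num)]
        linarith
      refine le_trans (mul_le_mul_of_nonneg_left ?_ hk20) h9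
      rw [hε']; exact min_le_left _ _) hc1p (hEdef ▸ hEp) hlt.le
  obtain ⟨s, hs⟩ : ∃ s : ℝ, s = fderiv ℝ (mo η (cmp (u 1 d) θ)) z₀ x := ⟨_, rfl⟩
  rw [← hs, ← hEdef] at hS
  have hs2 : 0 < s ^ 2 := lt_trans (by positivity) hS
  have hs0 : s ≠ 0 := by
    intro h; rw [h] at hs2; simp at hs2
  have hn : ‖s⁻¹ • θ‖ ^ 2 ≤ 1 / (c₁ * E) := by
    rw [norm_smul, mul_pow, norm_inv, inv_pow, Real.norm_eq_abs, sq_abs]
    have h1 : ‖θ‖ ^ 2 ≤ 1 := by nlinarith [norm_nonneg θ]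
    calc (s ^ 2)⁻¹ * ‖θ‖ ^ 2 ≤ (s ^ 2)⁻¹ * 1 := by gcongr
      _ = 1 / s ^ 2 := by rw [mul_one, one_div]
      _ ≤ 1 / (c₁ * E) := one_div_le_one_div_of_le (by positivity) hS.le
  refine ⟨fun γ a => cmp (u γ a) (s⁻¹ • θ), ?_, ?_, ?_, ?_, ?_⟩
  · exact fun γ a z hz => cmp_contDiffAt (hu.smooth γ a z hz) _
  · intro γ a b z hz
    show @inner ℝ H _ (u γ a z) _ = @inner ℝ H _ (u (γ * C.κ a b z) b (C.T a b z)) _
    rw [hu.compat γ a b z hz]
  · intro γ a
    have h1 : ∫ z in C.V a, D1 (cmp (u γ a) (s⁻¹ • θ)) z ≤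
        ‖s⁻¹ • θ‖ ^ 2 * ∫ z in C.V a, D1H (u γ a) z := by
      rw [← integral_const_mul]
      refine setIntegral_mono_on (H287.V.intV fun z hz =>
        (H287.V.contAt_D1 (cmp_contDiffAt (hu.smooth γ a z hz) _)).continuousWithinAt)
        ((H287.V.intV (cont_D1H (hu.smooth γ a))).const_mul _) measurableSet_ball fun z hz => ?_
      exact D1_cmp_le ((hu.smooth γ a z (H287.V.V_sub C a hz)).differentiableAt (by simp)) _
    have h2 := int_D1H_le hP P K hu γ a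
    rw [← hEdef, ← hL1] at h2
    have h3 : 0 ≤ ∫ z in C.V a, D1H (u γ a) z :=
      setIntegral_nonneg measurableSet_ball fun z _ => D1H_nonneg _ _
    calc _ ≤ 1 / (c₁ * E) * (L1 * E) := h1.trans (mul_le_mul hn h2 h3 (by positivity))
      _ = L1 / c₁ := by field_simp
  · intro γ a
    have h1 : ∫ z in C.V a, D2 (cmp (u γ a) (s⁻¹ • θ)) z ≤
        ‖s⁻¹ • θ‖ ^ 2 * ∫ z in C.V a, D2H (u γ a) z := by
      rw [← integral_const_mul]
      refine setIntegral_mono_on (H287.V.intV fun z hz =>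
        (H287.V.contAt_D2 (cmp_contDiffAt (hu.smooth γ a z hz) _)).continuousWithinAt)
        ((H287.V.intV (cont_D2H (hu.smooth γ a))).const_mul _) measurableSet_ball fun z hz => ?_
      exact D2_cmp_le ((hu.smooth γ a z (H287.V.V_sub C a hz)).of_le two_le) _
    have h2 := int_D2H_le hP P K hu γ a
    rw [← hHdef, ← hL2] at h2
    have h3 : 0 ≤ ∫ z in C.V a, D2H (u γ a) z :=
      setIntegral_nonneg measurableSet_ball fun z _ => D2H_nonneg _ _
    have h4 : Hn ≤ ε * c₁ / L2 * E := by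
      rw [← hEdef, ← hHdef] at hlt
      refine hlt.le.trans (mul_le_mul_of_nonneg_right ?_ hEp.le)
      rw [hε']; exact min_le_right _ _
    calc _ ≤ 1 / (c₁ * E) * (L2 * Hn) := h1.trans (mul_le_mul hn h2 h3 (by positivity))
      _ ≤ 1 / (c₁ * E) * (L2 * (ε * c₁ / L2 * E)) := by gcongr
      _ = ε := by field_simp
  · refine ⟨d, z₀, hz₀, x, hx, le_of_eq ?_⟩
    have h1 := fderiv_mo_cmp hδ hδ' hη (hu.smooth 1 d) hz₀ x (ι := Fin 1) (fun _ => s⁻¹)
      (fun _ => θ)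
    simp only [Finset.univ_unique, Finset.sum_singleton] at h1
    show _ = fderiv ℝ (mo η (cmp (u 1 d) (s⁻¹ • θ))) z₀ x
    rw [h1, ← hs, inv_mul_cancel₀ hs0]

/-- **T7** -/
theorem t7Concl : Vale.Agent.P284.H409.T.T7Concl := by
  intro n Γ _ C P K hex
  obtain ⟨a₀, -, ha₀⟩ := Finset.exists_min_image Finset.univ C.r
    ⟨Classical.arbitrary C.I, Finset.mem_univ _⟩
  have hδ : 0 < C.r a₀ / 4 := by have := C.r_pos a₀; positivity
  have hδ' : ∀ a, 4 * (C.r a₀ / 4) ≤ C.r a := fun a => by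
    have := ha₀ a (Finset.mem_univ a); linarith
  obtain ⟨η, B, h⟩ := H513.V.v11Stmt n _ hδ
  obtain ⟨C₁, hC₁⟩ := exists_app H730.V.vpStmt C P K hex _ η B hδ hδ' h
  exact v14BStmt H894.V.v12Stmt n Γ C _ η B hδ hδ' h C₁ hC₁

end Vale.Agent.P284.H287.T
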